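import Vale.Agent.P352X.R.JC.A1
import Vale.Agent.P352Z.P352.BW.H649.Lw
import Vale.Agent.P352Z.P352X.R.GRP.C
import Vale.Agent.P352G44.Jug
import Vale.Agent.P352G2.Kit

open Vale.Agent.P352G

/-!
# P352X, row JC: the modular conjugation of the wedge and the similitudes
-/

set_option linter.all false

noncomputable section

open MeasureTheory Filter Topology Set
open scoped SchwartzMap ComplexConjugate

namespace Vale.Agent.P352X.JCa

open Vale.Agent.P352 Vale.Agent.P352.GF Vale.Agent.P352.BW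
open Vale.Agent.P352.H246 Vale.Agent.P352.H496 Vale.Agent.P352.H755 Vale.Agent.P352.H15
open Vale.Agent.P132 (ModData jconj)
open UniformSpace (Completion)

variable {D : Type*} [NormedAddCommGroup D] [InnerProductSpace ℂ D] [GrD D]

theorem gamZ (c : CtxZ D) (z : Completion D) : c.J (Gm D z) = Gm D (c.J z) :=
  (P352G44.jug_row D c.Q c.A c.N c.hN c.hG c.E).1 z

/-- `J U(g) = U(j g j) J` up to the grading -/
theorem ugGZ (c : CtxZ D) (s : ℝ) (L : Ix → V) (a : V) (hs : 0 < s) (hL : IsLor L) :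
    ∃ e : Bool, ∀ z, c.J (Ug c.Q s L a z) = cond e (Gm D) 1 (Ug c.Q s (jL L) (jr a) (c.J z)) :=
  (P352G44.jug_row D c.Q c.A c.N c.hN c.hG c.E).2.2 s L a hs hL

/-- **`J U(g) = U(j g j) J`** -/
theorem ugZ (c : CtxZ D) (s : ℝ) (L : Ix → V) (a : V) (z : Completion D) (hs : 0 < s)
    (hL : IsLor L) (h : Gm D z = z ∨ L = GF.one ∨ AN va L ∨ AN vb L) :
    c.J (Ug c.Q s L a z) = Ug c.Q s (jL L) (jr a) (c.J z) := by
  rcases h with h | h
  · obtain ⟨e, he⟩ := ugGZ c s L a hs hL
    rw [he]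
    cases e
    · rfl
    · rw [cond_true, c.hN.toRepZ.gUz, ← gamZ, h]
  · exact (P352G44.jug_row D c.Q c.A c.N c.hN c.hG c.E).2.1 s L a z hs hL h

theorem utZ (c : CtxZ D) (y : V) (z : Completion D) :
    c.J (Ut c.Q y z) = Ut c.Q (jr y) (c.J z) := by
  have h := ugZ c 1 GF.one y z one_pos H496.isLor_one (.inr (.inl rfl))
  rwa [jL_one] at h

end Vale.Agent.P352X.JCa
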