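import Vale.Agent.P352X.R.JC.A2
import Vale.Agent.P352Z.P352X.R.CTX
import Vale.Agent.P352Z.P352X.R.JC.A1
import Vale.Agent.P352G21.Dug
import Vale.Agent.P352X.EG.W

open Vale.Agent.P352G

/-!
# P352X, row JC: the stress tensor, the group `S0`, the algebras of the wedges
-/

set_option linter.all false

noncomputable section

open MeasureTheory Filter Topology Set
open scoped SchwartzMap ComplexConjugate

namespace Vale.Agent.P352X.JCa

open Vale.Agent.P352 Vale.Agent.P352.GF Vale.Agent.P352.BW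
open Vale.Agent.P352.H246 Vale.Agent.P352.H496 Vale.Agent.P352.H755 Vale.Agent.P352.H15
open Vale.Agent.P352.BW.T (Ten op tp cp rq cm Afs)
open Vale.Agent.P352.BW.H49 (Adj)
open Vale.Agent.P132 (ModData jconj)
open UniformSpace (Completion)

variable {D : Type*} [NormedAddCommGroup D] [InnerProductSpace ℂ D] [GrD D] (c : CtxZ D)

/-! ### the algebras of the wedges -/

theorem algZ (a b y : V) (ha : IsNull a) (hb : IsNull b) (hab : 0 < GF.mdot a b) :
    ∀ X ∈ c.N (Wdg a b y), tw (jconj c.J X) ∈ c.N (jr '' Wdg a b y) := by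
  intro X hX
  obtain ⟨L, hL, h2⟩ := trans ha hb hab
  rw [← (h2 y).1] at hX ⊢
  have R := c.hN.toRepZ
  have g := R.g0
  have u := R.uni 1 L y
  have u' := R.uni 1 (jL L) (jr y)
  have ev := R.ev_ug 1 (jL L) (jr y)
  obtain ⟨e, he⟩ := ugGZ c 1 L y one_pos hL
  have k1 := c.hN.alg one_pos hL y (Wdg va vb 0)
  have k2 := c.hN.alg one_pos (isLor_jL hL) (jr y) (jr '' Wdg va vb 0)
  set U := Ug c.Q 1 L y
  set U' := Ug c.Q 1 (jL L) (jr y)
  have u1 : ∀ z, U (star U z) = z := fun z => DFunLike.congr_fun u.2 z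
  have u2 : ∀ z, star U' (U' z) = z := fun z => DFunLike.congr_fun u'.1 z
  have h1 : star U * X * U ∈ c.N (Wdg va vb 0) := (k1 _).2 (by
    rwa [← mul_assoc, ← mul_assoc, u.2, one_mul, mul_assoc, u.2, mul_one])
  have h3 := ((P352G21.dug (bwg D) c.Q c.A c.N c.hN c.hG va vb 0 null_va null_vb
    (by rw [md_ab]; exact one_pos)).1 _).1 (c.E.J_mem _ h1)
  rw [← jr_wdg] at h3
  have h4 := (k2 _).1 h3
  have e1 : sim 1 (jL L) (jr y) '' (jr '' Wdg va vb 0) = jr '' (sim 1 L y '' Wdg va vb 0) := by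
    simp only [image_image, sim_jL]
  rw [e1, ← g.tw_conj ev (g.ev_star ev)] at h4
  have gg : ∀ z, cond e (Gm D) 1 (cond e (Gm D) 1 z) = z := by
    cases e
    exacts [fun _ => rfl, g.gz]
  have e2 : ∀ z, c.J (star U' (cond e (Gm D) 1 z)) = star U (c.J z) := fun z => by
    conv_lhs => rw [← c.E.J_J z, ← u1 (c.J z), he, gg, u2, c.E.J_J]
  have e3 : jconj c.J X = cond e (Gm D) 1 * (U' * jconj c.J (star U * X * U) * star U') *
      cond e (Gm D) 1 := by
    ext z
    show c.J (X (c.J z)) = cond e (Gm D) 1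
      (U' (c.J (star U (X (U (c.J (star U' (cond e (Gm D) 1 z))))))))
    rw [e2, u1, ← he, u1]
  rw [e3]
  cases e
  · rwa [cond_false, one_mul, mul_one]
  · rw [cond_true, ← g.cj_tw]
    exact c.hN.gam _ _ h4

theorem algEZ (a b y : V) (ha : IsNull a) (hb : IsNull b) (hab : 0 < GF.mdot a b) :
    ∀ X ∈ c.N (Wdg a b y), Ev X →
      jconj c.J X ∈ c.N (jr '' Wdg a b y) ∧ Ev (jconj c.J X) := fun X hX h => by
  have k : Ev (jconj c.J X) := c.hN.g0.ev_of_apply fun z => by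
    show Gm D (c.J (X (c.J z))) = c.J (X (c.J (Gm D z)))
    rw [← gamZ, c.hN.g0.ev_apply h, gamZ]
  exact ⟨k.tw ▸ algZ c a b y ha hb hab X hX, k⟩

/-! ### the null rotations -/

theorem gaZ (w : R2) (z : Completion D) : c.J (Ga c.Q w z) = Ga c.Q (-w) (c.J z) := by
  rw [Ga, ugZ c _ _ _ _ one_pos (Grp.lga w).1 (.inr (.inr (.inl (AN.nrt _ _)))), jr_zero, Ga]
  congr 2
  refine T.mat_ext fun x => ?_
  have h := sim_jL (H746.nrt va (tv ((1 / 2 : ℝ) • w))) 1 0 (jr x)
  rw [jr_jr, jr_zero] at h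
  rw [h, (Grp.lga w).2, (Grp.lga (-w)).2]
  refine null_ext ?_ (by simp) (by simp)
  simp [d2_neg, d2_neg_l]
  ring

theorem s0Z (t : ℝ) (z : Completion D) : c.J (c.S0 t z) = c.S0 (-t) (c.J z) := by
  have h := c.a3.intertwine_anti CTXp.pair3 c.a3.toCalc measurable_id
    c.J.toContinuousLinearEquiv.toContinuousLinearMap (v := z) (w := c.J z) (fun y => ?_)
    (SN.Bd.expI (r := fun k : P3 => t * (d2 k.2 k.2 / k.1)) (by fun_prop))
  · refine h.trans ?_
    rw [CtxZ.S0]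
    congr 2
    funext k
    rw [← Complex.exp_conj, map_mul, Complex.conj_I, Complex.conj_ofReal]
    congr 1
    push_cast
    simp
  · have e : (fun p => conj (SN.ch pr3 y (id p))) = SN.ch pr3 (-y) := funext fun p => by
      rw [SN.ch, SN.ch, ← Complex.exp_conj, map_mul, Complex.conj_I, Complex.conj_ofReal]
      congr 1
      simp [pr3, d2_neg]
      ring
    rw [e, c.a3.Phi_ch]
    show c.J (Ut c.Q _ (Ga c.Q _ z)) = _
    rw [utZ, gaZ]
    congr 2
    exact null_ext (by simp) (by simp) (by simp)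

/-! ### the stress tensor -/

/-- the components of the stress tensor -/
abbrev TZ : (Fin 2 → Ix) → Fld D := fun μ => c.T (μ 0) (μ 1)

lemma ten_TZ : Ten c.Q 2 (TZ c) := by
  refine ⟨fun μ => Grp.T_fld c.hT _ _, fun μ L f v hL hf => ?_⟩
  refine (c.hT.cov _ _ 1 L 0 f v one_pos hL hf).trans ?_
  rw [← (finTwoArrowEquiv Ix).symm.sum_comp, Fintype.sum_prod_type]
  simp [finTwoArrowEquiv, Fin.prod_univ_two, TZ]

lemma adj_TZ : Adj (TZ c) (TZ c) := by
  intro a f v w hf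
  rw [op, op, sum_inner, inner_sum]
  exact Finset.sum_congr rfl fun μ _ => by
    rw [inner_smul_left, inner_smul_right, c.hT.herm _ _ f v w hf]

variable (a : (Fin 2 → Ix) → ℂ) {f : Fn}

lemma bo_opZ (t : ℝ) (hf : GF.IsTest f) : c.E.U t (op (TZ c) a f c.Q.vac : D) =
    (op (TZ c) (tp (O649.bi va vb t) a) (cp (O649.bi va vb t) f) c.Q.vac : D) := by
  have hL := EG.Bws.lor (-t)
  have h := T.cov_of (ten_TZ c) a hL hf c.Q.vac
  rw [c.Q.U_vac 1 _ 0 one_pos hL] at h
  have k := c.E.U_neg_apply (-t)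
  rw [neg_neg] at k
  rw [h, EG.Bws.bi_eq, ← Grp.coe one_pos hL, ← Bwg.bw0 c.hN c.hG c.E, k]

lemma holZ (hf : In (Wdg va vb 0) f) : EG.Hol (fun t z => c.E.U t z)
    (op (TZ c) a f c.Q.vac : D) (op (TZ c) (tp rj a) (cp rj f) c.Q.vac : D) := by
  let e := (Fintype.equivFin (Fin 2 → Ix)).symm
  have ov : ∀ a f, EG.ov c.cg (fun i => TZ c (e i)) (fun i => a (e i)) f =
      (op (TZ c) a f c.Q.vac : D) := fun a f => by
    rw [op, show ((∑ μ, a μ • TZ c μ f c.Q.vac : D) : Completion D) =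
      ∑ μ, ((a μ • TZ c μ f c.Q.vac : D) : Completion D) from
        map_sum (Completion.toComplL (𝕜 := ℂ) (E := D)) _ Finset.univ]
    simp only [Completion.coe_smul]
    exact e.sum_comp fun μ => a μ • ((TZ c μ f c.Q.vac : D) : Completion D)
  refine EG.og_row c.cg va vb null_va null_vb md_ab _ (fun i => TZ c (e i))
    (fun z i => O649.cz va vb a z (e i)) f _ _ _ (fun i => (ten_TZ c).fld _)
    (fun i => O649.nice_cz _ _ _ _) hf (fun t z => c.E.norm_U t z) fun t => ?_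
  simp only [O649.cz_real, O649.cz_half null_va null_vb md_ab]
  rw [ov, ov, bo_opZ c a t hf.1, bo_opZ c _ t (test_jr hf.1)]
  exact ⟨rfl, rfl⟩

lemma afsZ (hf : In (Wdg va vb 0) f) : Afs (c.N (Wdg va vb 0)) (op (TZ c) a f)
    (op (TZ c) (fun μ => conj (a μ)) (bar f)) :=
  T.afs_of (fun v w => adj_TZ c a f v w hf.1)
    (T.H732W.aff_sum (fun μ => c.hN.fld _ _ f ((ten_TZ c).fld μ) hf) a)

lemma jwZ (hf : In (Wdg va vb 0) f) : ((op (TZ c) (tp rj a) (cp rj f) c.Q.vac : D) : Completion D) =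
    c.J (op (TZ c) (fun μ => conj (a μ)) (bar f) c.Q.vac : D) := by
  obtain ⟨G, g1, g2, g3, g4⟩ := holZ c a hf
  refine H49.val_eq c.E (V := fun t z => c.E.U t z) (fun t F z => ?_)
    (fun z => by rw [c.E.U_zero]; rfl) ((T.m _ c.Q.vac c.E _ _).1 (afsZ c a hf))
    (T.ct_of g1 g2 g3 g4) fun t => c.E.U_neg_apply t _
  have h : c.E.Th (P132.expB t) * c.E.Th F = c.E.Th F * c.E.Th (P132.expB t) := by
    rw [← map_mul, ← map_mul, mul_comm]
  exact DFunLike.congr_fun h z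

lemma key0Z (hf : In (Wdg va vb 0) f) {v v' : D} (hv : c.J v = v') :
    c.J (op (TZ c) a f v : D) = (jo (TZ c) a f v' : D) := by
  have h1 := EG.Bws.in_rq (EG.Bws.in_bar hf)
  have h2 := fun μ => (EG.e0_thm c.cg).bas.aff false _ _ _ ((ten_TZ c).fld μ) ((ten_TZ c).fld μ)
    (c.hT.herm _ _) (fun f v hf => (c.hN.gr.bose _ f v (c.hT.bose _ _) hf).trans
      (one_smul ℂ _).symm) h1
  refine anti c.E (afsZ c a hf) (T.afs_of (fun v w => adj_TZ c _ _ v w h1.1)
    (T.H732W.aff_sum (fun μ => ⟨_, (h2 μ).1, (h2 μ).2⟩) _)) ?_ hv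
  refine (jwZ c a hf).symm.trans ?_
  rw [T.bar_cp, T.bar_bar']
  congr 2
  funext μ
  simp [tp_rj]

lemma op_trZ (y : V) (hf : GF.IsTest f) (v : D) : op (TZ c) a f (c.Q.U 1 GF.one y v) =
    c.Q.U 1 GF.one y (op (TZ c) a (fun x => f (sim 1 GF.one y x)) v) := by
  rw [op, op, H246.U_sum one_pos H496.isLor_one]
  exact Finset.sum_congr rfl fun μ _ => by
    rw [U_smul one_pos H496.isLor_one, c.Q.transl _ y f _ ((ten_TZ c).fld μ) hf]

lemma key1Z (hf : In univ f) {v v' : D} (hv : c.J v = v') :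
    c.J (op (TZ c) a f v : D) = (jo (TZ c) a f v' : D) := by
  have h1 := H496.isLor_one
  obtain ⟨y, hy⟩ := H49.ex_tr hf.2.1
  have hg := H49.in_tr hf.1 hf.2.1 hy
  have e1 := op_trZ c a y hg.1 v
  have e2 := op_trZ c (tp rj fun μ => conj (a μ)) (jr y) (test_jr (T.test_bar hg.1)) v'
  have e3 : (fun x => cp rj (bar (H49.tr y f)) (sim 1 GF.one (jr y) x)) = cp rj (bar f) := by
    funext x
    have h := sim_jL GF.one 1 y (jr x)
    rw [jL_one, jr_jr] at h
    rw [cp_rj, cp_rj, h]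
    beta_reduce
    rw [jr_jr]
    exact congrFun (H49.tr_sim y (bar f)) (jr x)
  rw [H49.tr_sim] at e1
  rw [e3] at e2
  have u : ∀ z, star (Ut c.Q (jr y)) (Ut c.Q (jr y) z) = z := fun z =>
    DFunLike.congr_fun (c.hN.toRepZ.uni 1 GF.one (jr y)).1 z
  have k := key0Z c a hg (v := c.Q.U 1 GF.one y v) (v' := c.Q.U 1 GF.one (jr y) v') (by
    rw [← Grp.coe one_pos h1, ← Grp.coe one_pos h1, ← hv]
    exact utZ c y v)
  rw [e1, jo, e2, ← Grp.coe one_pos h1, ← Grp.coe one_pos h1] at k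
  rw [← u (c.J _), ← utZ]
  exact (congrArg _ k).trans (u _)

/-- **`J T(f) J`** on the domain -/
theorem jtZ (m n : Ix) {f : Fn} (hf : GF.IsTest f) {v v' : D} (hv : c.J v = v') :
    c.J (c.T m n f v : D) =
      (((sj m * sj n : ℝ) : ℂ) • c.T m n (bar fun z => f (jr z)) v' : D) := by
  classical
  obtain ⟨g, rfl⟩ := hf
  obtain ⟨-, u, -, -, h1, -, h2⟩ := ST.exists_cut g
  let e := T.eqv rj rj (fun x => by rw [sim_rj, sim_rj, jr_jr]) fun x => by
    rw [sim_rj, sim_rj, jr_jr]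
  let B : Sch → Sch := fun g => SchwartzMap.postcompCLM (𝕜 := ℝ) (Complex.conjCLE : ℂ →L[ℝ] ℂ)
    (SchwartzMap.compCLMOfContinuousLinearEquiv ℂ e g)
  have hB : ∀ g, ev (B g) = bar fun z => ev g (jr z) := fun g =>
    funext fun z => congrArg (fun x => star (g x)) (sim_rj z)
  have cT := fun v => c.Q.cont _ v (Grp.T_fld c.hT m n)
  have cc := Completion.continuous_coe D
  refine tendsto_nhds_unique ((c.J.continuous.comp (cc.comp (cT v))).tendsto g |>.comp h2) ?_
  rw [← hB]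
  refine ((cc.comp (((cT v').comp (show Continuous B by fun_prop)).const_smul
    ((sj m * sj n : ℝ) : ℂ))).tendsto g |>.comp h2).congr fun i => ?_
  have k := key1Z c (Pi.single ![m, n] 1) (f := ev (u i)) ⟨⟨_, rfl⟩, h1 i, subset_univ _⟩ hv
  rw [T.op_single, jo, op, Finset.sum_eq_single ![m, n], tp_rj, cp_rj] at k
  · refine Eq.trans ?_ k.symm
    simp [hB]
    rfl
  · intro ν _ h
    simp [tp_rj, Pi.single_eq_of_ne h]
  · simp

theorem oneZ (m n : Ix) (f : Fn) (hf : GF.IsTest f) : c.J (c.T m n f c.Q.vac : D) =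
    ((sj m * sj n : ℝ) : ℂ) • ((c.T m n (bar fun z => f (jr z)) c.Q.vac : D) : Completion D) := by
  rw [jtZ c m n hf c.E.J_xi, Completion.coe_smul]

theorem twoZ (m n k l : Ix) (f g : Fn) (hf : GF.IsTest f) (hg : GF.IsTest g) :
    c.J (c.T m n f (c.T k l g c.Q.vac) : D) =
      ((sj m * sj n * (sj k * sj l) : ℝ) : ℂ) • ((c.T m n (bar fun z => f (jr z))
        (c.T k l (bar fun z => g (jr z)) c.Q.vac) : D) : Completion D) := by
  have t : GF.IsTest fun z => f (jr z) := cp_rj f ▸ test_jr hf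
  have e : ∀ (a : ℂ) v, c.T m n (bar fun z => f (jr z)) (a • v) =
      a • c.T m n (bar fun z => f (jr z)) v := fun a v => ext_inner_left ℂ fun w => by
    rw [← c.hT.herm m n _ _ _ t, inner_smul_right, inner_smul_right, c.hT.herm m n _ _ _ t]
  rw [jtZ c m n hf (jtZ c k l hg c.E.J_xi), e, smul_smul, Completion.coe_smul, ← Complex.ofReal_mul]

end Vale.Agent.P352X.JCa
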