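import Vale.Agent.P352X.R.JC.B
import Vale.Agent.P352Z.P352.BW.H268.Tra
import Vale.Agent.P352Z.P352X.R.JC.A1
import Vale.Agent.P352Z.P352X.R.JC.B1
import Vale.Agent.P352G21.Dug

open Vale.Agent.P352G

/-!
# P352X, row JC: wedge duality, and the polynomials in the fields as a core
-/

set_option linter.all false

noncomputable section

open MeasureTheory Filter Topology Set
open scoped ComplexConjugate

namespace Vale.Agent.P352X.JCb

open Vale.Agent.P352 Vale.Agent.P352.GF Vale.Agent.P352.BW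
open Vale.Agent.P352.H246 Vale.Agent.P352.H496 Vale.Agent.P352.H755 Vale.Agent.P352.H15
open UniformSpace (Completion)

variable {D : Type*} [NormedAddCommGroup D] [InnerProductSpace ℂ D] [GrD D]

/-- **twisted wedge duality** -/
theorem dualZ (c : CtxZ D) (a b y : V) (ha : IsNull a) (hb : IsNull b) (hab : 0 < GF.mdot a b)
    (X : Completion D →L[ℂ] Completion D) :
    X ∈ (c.N (Wdg a b y)).commutant ↔ tw X ∈ c.N (Wdg b a y) :=
  (P352G21.dug (bwg D) c.Q c.A c.N c.hN c.hG a b y ha hb hab).1 X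

theorem dualEZ (c : CtxZ D) (a b y : V) (ha : IsNull a) (hb : IsNull b) (hab : 0 < GF.mdot a b)
    (X : Completion D →L[ℂ] Completion D) (h : Ev X) :
    X ∈ (c.N (Wdg a b y)).commutant ↔ X ∈ c.N (Wdg b a y) := by
  rw [dualZ c a b y ha hb hab, h.tw]

/-- **the polynomials in the fields in the opposite wedge detect the pairs**, even vectors -/
theorem coreZ (c : CtxZ D) (a b y : V) (ψ ψ' : Completion D) (ha : IsNull a)
    (hb : IsNull b) (hab : 0 < GF.mdot a b) (e : Gm D ψ = ψ) (e' : Gm D ψ' = ψ')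
    (h : ∀ X X', Al c.Q (Wdg b a y) X X' → inner ℂ ((X' c.Q.vac : D) : Completion D) ψ =
      inner ℂ ψ' ((X c.Q.vac : D) : Completion D)) : Pr (c.N (Wdg a b y)) c.Om ψ ψ' :=
  (P352G21.dug (bwg D) c.Q c.A c.N c.hN c.hG a b y ha hb hab).2 false ψ ψ'
    (by rw [e, EG.sg, cond_false, one_smul]) (by rw [e', EG.sg, cond_false, one_smul])
    fun X X' k => by rw [h X X' k, EG.sg, cond_false, one_mul]

/-- odd vectors -/
theorem coreOZ (c : CtxZ D) (a b y : V) (ψ ψ' : Completion D) (ha : IsNull a)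
    (hb : IsNull b) (hab : 0 < GF.mdot a b) (e : Gm D ψ = -ψ) (e' : Gm D ψ' = -ψ')
    (h : ∀ X X', Al c.Q (Wdg b a y) X X' → inner ℂ ((X' c.Q.vac : D) : Completion D) ψ =
      -inner ℂ ψ' ((X c.Q.vac : D) : Completion D)) : Pr (c.N (Wdg a b y)) c.Om ψ ψ' :=
  (P352G21.dug (bwg D) c.Q c.A c.N c.hN c.hG a b y ha hb hab).2 true ψ ψ'
    (by rw [e, EG.sg, cond_true, neg_one_smul]) (by rw [e', EG.sg, cond_true, neg_one_smul])
    fun X X' k => by rw [h X X' k, EG.sg, cond_true, neg_one_mul]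

end Vale.Agent.P352X.JCb
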